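import Vale.Agent.P057.Bound

namespace Vale.Agent.Results.P057.A_LowerR3

theorem result :
    2 * √(2 / 3 * Real.log (1000 / 169)) < 2 * √(Real.log (24 / 7)) ∧
    ∀ ε : ℝ, 0 < ε → ∃ N₀ : ℕ, ∀ N : ℕ, N₀ ≤ N →
      ∃ A : Finset ℕ, A ⊆ Finset.Icc 1 N ∧
        (∀ a d : ℕ, 0 < d → ¬ (a ∈ A ∧ a + d ∈ A ∧ a + 2 * d ∈ A)) ∧
        (N : ℝ) * Real.exp (-(2 * √(2 / 3 * Real.log (1000 / 169)) + ε) * √(Real.log N))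
          ≤ (A.card : ℝ) :=
  ⟨Vale.Agent.P057.const_lt, Vale.Agent.P057.main⟩

end Vale.Agent.Results.P057.A_LowerR3
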